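import Vale.Agent.P038.H139.GStep

/-!
# Rewiring all rows at once (P038)

For arbitrary nonempty sets `Y z` with `z ∈ Y z` or `z ∉ N⁺[Y z]`, put
`N'(z) = N⁺[Y z] \ {z}`. If the new graph is oriented and the new rows stay inside the two-balls
of the sets `Y z`, the new graph is again a counterexample for the same weight.
-/

namespace Vale.Agent.P038.H753

open Finset H139

variable {V : Type*} [Fintype V]

/-- The graph with rows `N⁺[Y z] \ {z}`. -/
def rewAll (D : OGraph V) (Y : V → Finset V)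
    (ha : ∀ z y, y ≠ z → y ∈ cl D (Y z) → z ∉ cl D (Y y)) : OGraph V where
  arc z y := y ≠ z ∧ y ∈ cl D (Y z)
  loopless _ h := h.1 rfl
  asymm _ _ h h' := ha _ _ h.1 h.2 h'.2

theorem rewAll_arc {D : OGraph V} {Y : V → Finset V}
    {ha : ∀ z y, y ≠ z → y ∈ cl D (Y z) → z ∉ cl D (Y y)} {z y : V} :
    (rewAll D Y ha).arc z y ↔ y ≠ z ∧ y ∈ cl D (Y z) := Iff.rfl

theorem subset_cl {D : OGraph V} {S : Finset V} : S ⊆ cl D S := fun _ hz =>
  mem_cl.2 (Or.inl hz)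

/-- (G) in terms of closed neighbourhoods: `w(N[N[X]] \ N[X]) ≤ λ w(N[X] \ X)`. -/
theorem g_cl [DecidableEq V] {lam : ℝ} {D : OGraph V} {w : V → ℝ} (h : Opt lam D w)
    (X : Finset V) : W w (cl D (cl D X) \ cl D X) ≤ lam * W w (cl D X \ X) := by
  have h1 := step3 h X
  have e1 : outS D X \ X = cl D X \ X := by
    ext z
    simp only [Finset.mem_sdiff, mem_outS, mem_cl]
    tauto
  have e2 : outS D (outS D X \ X) \ (X ∪ (outS D X \ X)) = cl D (cl D X) \ cl D X := by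
    ext z
    simp only [Finset.mem_sdiff, Finset.mem_union, mem_outS, mem_cl]
    constructor
    · rintro ⟨⟨y, ⟨⟨x, hx, hxy⟩, hyX⟩, hyz⟩, h2⟩
      push Not at h2
      refine ⟨Or.inr ⟨y, Or.inr ⟨x, hx, hxy⟩, hyz⟩, ?_⟩
      rintro (h3 | ⟨x', hx', hx'z⟩)
      · exact h2.1 h3
      · exact h2.1 (h2.2 ⟨x', hx', hx'z⟩)
    · rintro ⟨h2, h3⟩
      push Not at h3
      rcases h2 with (h2 | ⟨x, hx, hxz⟩) | ⟨y, (hy | ⟨x, hx, hxy⟩), hyz⟩
      · exact absurd h2 h3.1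
      · exact absurd hxz (h3.2 x hx)
      · exact absurd hyz (h3.2 y hy)
      · refine ⟨⟨y, ⟨⟨x, hx, hxy⟩, fun hyX => h3.2 y hyX hyz⟩, hyz⟩, ?_⟩
        rintro (h4 | ⟨⟨x', hx', hx'z⟩, _⟩)
        · exact h3.1 h4
        · exact h3.2 x' hx' hx'z
  rw [e1] at h1
  rw [e1] at e2
  rw [e2] at h1
  exact h1

theorem cl_singleton_sdiff [DecidableEq V] (D : OGraph V) (z : V) : cl D {z} \ {z} = N1 D z := by
  ext x
  simp only [Finset.mem_sdiff, mem_cl, Finset.mem_singleton, mem_N1]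
  constructor
  · rintro ⟨h1 | ⟨y, rfl, h1⟩, h2⟩
    · exact absurd h1 h2
    · exact h1
  · intro h1
    refine ⟨Or.inr ⟨z, rfl, h1⟩, ?_⟩
    rintro rfl
    exact D.loopless _ h1

theorem cl_cl_singleton_sdiff [DecidableEq V] (D : OGraph V) (z : V) :
    cl D (cl D {z}) \ cl D {z} = N2 D z := by
  ext x
  simp only [Finset.mem_sdiff, mem_cl, Finset.mem_singleton, mem_N2]
  constructor
  · rintro ⟨h1, h2⟩
    push Not at h2
    rcases h1 with (h1 | ⟨y, rfl, h1⟩) | ⟨y, (rfl | ⟨c, rfl, hcy⟩), hyx⟩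
    · exact absurd h1 h2.1
    · exact absurd h1 (h2.2 y rfl)
    · exact absurd hyx (h2.2 y rfl)
    · exact ⟨h2.1, h2.2 c rfl, y, hcy, hyx⟩
  · rintro ⟨h1, h2, c, h3, h4⟩
    refine ⟨Or.inr ⟨c, Or.inr ⟨z, rfl, h3⟩, h4⟩, ?_⟩
    rintro (h5 | ⟨y, rfl, h5⟩)
    · exact h1 h5
    · exact h2 h5

/-- **(REW), general form.** Under (a) and (b) all values of the rewired graph are at least
`λ w(Y_z \ z)`, and at least `1` when `Y_z = {z}`; so they are positive. -/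
theorem rew_value [DecidableEq V] {lam : ℝ} {D : OGraph V} {w : V → ℝ} (h : Opt lam D w)
    (Y : V → Finset V) (hz : ∀ z, z ∈ Y z ∨ z ∉ cl D (Y z))
    (ha : ∀ z y, y ≠ z → y ∈ cl D (Y z) → z ∉ cl D (Y y))
    (hb : ∀ z y, y ≠ z → y ∈ cl D (Y z) → ∀ x, x ≠ y → x ∈ cl D (Y y) →
      x ∈ cl D (cl D (Y z))) (z : V) :
    lam * W w (cl D (Y z) \ Y z) - W w (cl D (cl D (Y z)) \ cl D (Y z)) +
      lam * W w (Y z \ {z}) ≤ Fw lam (rewAll D Y ha) w z := by
  have h1 : N1 (rewAll D Y ha) z = cl D (Y z) \ {z} := by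
    ext x
    rw [mem_N1, rewAll_arc, Finset.mem_sdiff, Finset.mem_singleton]
    exact ⟨fun h => ⟨h.2, h.1⟩, fun h => ⟨h.2, h.1⟩⟩
  have h2 : N2 (rewAll D Y ha) z ⊆ cl D (cl D (Y z)) \ cl D (Y z) := by
    intro x hx
    obtain ⟨hxz, hnx, c, hc, hcx⟩ := mem_N2.1 hx
    rw [rewAll_arc] at hnx hc hcx
    refine Finset.mem_sdiff.2 ⟨hb z c hc.1 hc.2 x hcx.1 hcx.2, ?_⟩
    intro hx2
    exact hnx ⟨hxz, hx2⟩
  have h3 := W_mono h.nonneg h2
  have h4 : W w (cl D (Y z) \ {z}) = W w (cl D (Y z) \ Y z) + W w (Y z \ {z}) := by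
    rw [← W_union]
    · congr 1
      ext x
      simp only [Finset.mem_sdiff, Finset.mem_singleton, Finset.mem_union]
      constructor
      · rintro ⟨h5, h6⟩
        by_cases h7 : x ∈ Y z
        · exact Or.inr ⟨h7, h6⟩
        · exact Or.inl ⟨h5, h7⟩
      · rintro (⟨h5, h6⟩ | ⟨h5, h6⟩)
        · refine ⟨h5, ?_⟩
          rintro rfl
          rcases hz x with h7 | h7
          · exact h6 h7
          · exact h7 h5
        · exact ⟨subset_cl h5, h6⟩
    · rw [Finset.disjoint_left]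
      intro x hx hx'
      exact (Finset.mem_sdiff.1 hx).2 (Finset.mem_sdiff.1 hx').1
  unfold Fw
  rw [h1, h4, mul_add]
  linarith

/-- **(REW).** For `λ > 0`, nonempty sets `Y z` with `z ∈ Y z` or `z ∉ N⁺[Y z]`, and (a), (b), the
rewired graph is a counterexample for the same weight. -/
theorem rew_pos [DecidableEq V] {lam : ℝ} (hlam : 0 < lam) {D : OGraph V} {w : V → ℝ}
    (h : Opt lam D w) (Y : V → Finset V) (hne : ∀ z, (Y z).Nonempty)
    (hz : ∀ z, z ∈ Y z ∨ z ∉ cl D (Y z))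
    (ha : ∀ z y, y ≠ z → y ∈ cl D (Y z) → z ∉ cl D (Y y))
    (hb : ∀ z y, y ≠ z → y ∈ cl D (Y z) → ∀ x, x ≠ y → x ∈ cl D (Y y) →
      x ∈ cl D (cl D (Y z))) (z : V) :
    0 < Fw lam (rewAll D Y ha) w z := by
  have h1 := rew_value h Y hz ha hb z
  have h2 := g_cl h (Y z)
  by_cases he : Y z = {z}
  · have h3 := h.one z
    unfold Fw at h3
    rw [he, cl_singleton_sdiff, cl_cl_singleton_sdiff] at h1
    have h4 : 0 ≤ lam * W w (({z} : Finset V) \ {z}) :=
      mul_nonneg hlam.le (W_nonneg h.nonneg _)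
    linarith
  · have h3 : (Y z \ {z}).Nonempty := by
      rw [Finset.nonempty_iff_ne_empty]
      intro h4
      rw [Finset.sdiff_eq_empty_iff_subset] at h4
      exact he (Finset.Subset.antisymm h4 (by
        intro x hx
        rw [Finset.mem_singleton] at hx
        obtain ⟨y, hy⟩ := hne z
        have h5 := Finset.mem_singleton.1 (h4 hy)
        have h6 : x = y := hx.trans h5.symm
        rw [h6]
        exact hy))
    have h4 : 0 < W w (Y z \ {z}) := Finset.sum_pos (fun v _ => h.pos v) h3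
    have h5 := mul_pos hlam h4
    linarith

/-- The N-lemma as a property of the vertex set and `λ`: no counterexample with positive weight on
`V` has `x ≠ u`, `x` not joined to `u` by an arc `x → u`, with `N⁺(x) ⊆ N⁺(u)`. -/
def NOut (lam : ℝ) (V : Type*) [Fintype V] : Prop :=
  ∀ (D' : OGraph V) (w' : V → ℝ), (∀ v, 0 < w' v) → (∀ v, 0 < Fw lam D' w' v) →
    ∀ x u, x ≠ u → ¬ D'.arc x u → ¬ N1 D' x ⊆ N1 D' u

/-- (REW) with the N-lemma: no family with (a), (b) has `y ≠ z`, both in `Y z`, with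
`Y y ⊆ Y z`. -/
theorem rew_nest [DecidableEq V] {lam : ℝ} (hlam : 0 < lam) (hN : NOut lam V) {D : OGraph V}
    {w : V → ℝ} (h : Opt lam D w) (Y : V → Finset V) (hne : ∀ z, (Y z).Nonempty)
    (hz : ∀ z, z ∈ Y z ∨ z ∉ cl D (Y z))
    (ha : ∀ z y, y ≠ z → y ∈ cl D (Y z) → z ∉ cl D (Y y))
    (hb : ∀ z y, y ≠ z → y ∈ cl D (Y z) → ∀ x, x ≠ y → x ∈ cl D (Y y) →
      x ∈ cl D (cl D (Y z))) (y z : V) (hyz : y ≠ z) (hy : y ∈ cl D (Y z)) (hs : Y y ⊆ Y z) :
    False := by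
  refine hN (rewAll D Y ha) w h.pos (rew_pos hlam h Y hne hz ha hb) y z hyz ?_ ?_
  · intro h1
    exact ha z y hyz hy h1.2
  · intro x hx
    rw [mem_N1, rewAll_arc] at hx ⊢
    refine ⟨?_, cl_mono hs hx.2⟩
    rintro rfl
    exact ha _ _ hyz hy hx.2

/-- (REW) with the N-lemma: no family with (a), (b) has `Y y = Y z` for some `y ≠ z` with
`y, z` both in it or both outside `N⁺[Y z]`. -/
theorem rew_inj [DecidableEq V] {lam : ℝ} (hlam : 0 < lam) (hN : NOut lam V) {D : OGraph V}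
    {w : V → ℝ} (h : Opt lam D w) (Y : V → Finset V) (hne : ∀ z, (Y z).Nonempty)
    (hz : ∀ z, z ∈ Y z ∨ z ∉ cl D (Y z))
    (ha : ∀ z y, y ≠ z → y ∈ cl D (Y z) → z ∉ cl D (Y y))
    (hb : ∀ z y, y ≠ z → y ∈ cl D (Y z) → ∀ x, x ≠ y → x ∈ cl D (Y y) →
      x ∈ cl D (cl D (Y z))) (y z : V) (hyz : y ≠ z) (hs : Y y = Y z) :
    False := by
  by_cases hy : y ∈ cl D (Y z)
  · exact rew_nest hlam hN h Y hne hz ha hb y z hyz hy hs.subset
  by_cases hz' : z ∈ cl D (Y y)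
  · exact rew_nest hlam hN h Y hne hz ha hb z y hyz.symm hz' hs.superset
  refine hN (rewAll D Y ha) w h.pos (rew_pos hlam h Y hne hz ha hb) y z hyz ?_ ?_
  · intro h1
    exact hz' h1.2
  · intro x hx
    rw [mem_N1, rewAll_arc] at hx ⊢
    refine ⟨?_, hs ▸ hx.2⟩
    rintro rfl
    exact hz' hx.2

/-- (PRE), relation form: a reflexive transitive relation `X` (rows `Xr z`), with
`A X A ⊆ X A A` and `X A` antisymmetric, is the identity. -/
theorem pre_trivial [DecidableEq V] {lam : ℝ} (hlam : 0 < lam) (hN : NOut lam V) {D : OGraph V}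
    {w : V → ℝ} (h : Opt lam D w) (X : V → Finset V) (hrefl : ∀ z, z ∈ X z)
    (htrans : ∀ z y, y ∈ X z → X y ⊆ X z)
    (hA : ∀ z y, y ∈ cl D {z} → cl D (X y) ⊆ cl D (cl D (X z)))
    (hanti : ∀ z y, y ∈ cl D (X z) → z ∈ cl D (X y) → y = z) (z : V) : X z = {z} := by
  have ha : ∀ z y, y ≠ z → y ∈ cl D (X z) → z ∉ cl D (X y) :=
    fun z y h1 h2 h3 => h1 (hanti z y h2 h3)
  have hb : ∀ z y, y ≠ z → y ∈ cl D (X z) → ∀ x, x ≠ y → x ∈ cl D (X y) →
      x ∈ cl D (cl D (X z)) := by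
    intro z y _ hy x _ hx
    rcases mem_cl.1 hy with h1 | ⟨r, hr, hry⟩
    · exact subset_cl (cl_mono (htrans z y h1) hx)
    · have h2 := hA r y (mem_cl.2 (Or.inr ⟨r, Finset.mem_singleton_self r, hry⟩)) hx
      exact cl_mono (cl_mono (htrans z r hr)) h2
  by_contra hcon
  obtain ⟨y, hy, hyz⟩ : ∃ y ∈ X z, y ≠ z := by
    by_contra hno
    push Not at hno
    apply hcon
    ext x
    rw [Finset.mem_singleton]
    refine ⟨fun hx => hno x hx, ?_⟩
    rintro rfl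
    exact hrefl x
  exact rew_nest hlam hN h X (fun v => ⟨v, hrefl v⟩) (fun v => Or.inl (hrefl v)) ha hb y z hyz
    (subset_cl hy) (htrans z y hy)

end Vale.Agent.P038.H753
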