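import Vale.Agent.P038.H139.Basic

/-!
# The shift theorem: the comparison of the inner and the outer cut (P038)

`P`, `U` are families of sets (relations); `E` is the closed out-neighbourhood of rows, `AA` the
intersection of rows over closed in-neighbourhoods.
-/

namespace Vale.Agent.P038.H753

open Finset H139

variable {V : Type*} [Fintype V] [DecidableEq V]

theorem subset_cl' {D : OGraph V} {S : Finset V} : S ⊆ cl D S := fun _ hz =>
  mem_cl.2 (Or.inl hz)

theorem cl_mono' {D : OGraph V} {S T : Finset V} (h : S ⊆ T) : cl D S ⊆ cl D T := by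
  intro z hz
  rw [mem_cl] at hz ⊢
  rcases hz with hz | ⟨y, hy, hyz⟩
  · exact Or.inl (h hz)
  · exact Or.inr ⟨y, h hy, hyz⟩

theorem W_inter_union (w : V → ℝ) (S T : Finset V) :
    W w (S ∩ T) + W w (S ∪ T) = W w S + W w T := by
  unfold W
  rw [add_comm]
  exact Finset.sum_union_inter

/-- `φ_θ(X) = w(N[X]) - θ w(X)`. -/
noncomputable def phi (D : OGraph V) (w : V → ℝ) (θ : ℝ) (X : Finset V) : ℝ :=
  W w (cl D X) - θ * W w X

theorem phi_submod (D : OGraph V) {w : V → ℝ} (hw : ∀ v, 0 ≤ w v) (θ : ℝ) (S T : Finset V) :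
    phi D w θ (S ∩ T) + phi D w θ (S ∪ T) ≤ phi D w θ S + phi D w θ T := by
  have h1 := W_inter_union w (cl D S) (cl D T)
  have h2 := W_inter_union w S T
  have h3 : W w (cl D (S ∩ T)) ≤ W w (cl D S ∩ cl D T) :=
    W_mono hw (Finset.subset_inter (cl_mono' Finset.inter_subset_left)
      (cl_mono' Finset.inter_subset_right))
  have h4 : W w (cl D (S ∪ T)) ≤ W w (cl D S ∪ cl D T) := by
    refine W_mono hw ?_
    intro z hz
    rw [mem_cl] at hz
    rw [Finset.mem_union, mem_cl, mem_cl]
    rcases hz with hz | ⟨y, hy, hyz⟩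
    · rcases Finset.mem_union.1 hz with h | h
      · exact Or.inl (Or.inl h)
      · exact Or.inr (Or.inl h)
    · rcases Finset.mem_union.1 hy with h | h
      · exact Or.inl (Or.inr ⟨y, h, hyz⟩)
      · exact Or.inr (Or.inr ⟨y, h, hyz⟩)
  unfold phi
  have h5 : θ * W w (S ∩ T) + θ * W w (S ∪ T) = θ * W w S + θ * W w T := by
    rw [← mul_add, h2, mul_add]
  linarith

open Classical in
/-- The intersection of the rows over the closed in-neighbourhood. -/
noncomputable def AA (D : OGraph V) (Z : V → Finset V) (a : V) : Finset V :=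
  Finset.univ.filter fun x => ∀ s, (s = a ∨ D.arc s a) → x ∈ Z s

theorem mem_AA {D : OGraph V} {Z : V → Finset V} {a x : V} :
    x ∈ AA D Z a ↔ ∀ s, (s = a ∨ D.arc s a) → x ∈ Z s := by
  classical
  simp [AA]

theorem AA_sub {D : OGraph V} {Z : V → Finset V} {a : V} : AA D Z a ⊆ Z a := fun _ hx =>
  mem_AA.1 hx a (Or.inl rfl)

theorem AA_mono {D : OGraph V} {Z Z' : V → Finset V} (h : ∀ a, Z a ⊆ Z' a) (a : V) :
    AA D Z a ⊆ AA D Z' a := fun _ hx => mem_AA.2 fun s hs => h s (mem_AA.1 hx s hs)

/-- Successive intersection. -/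
theorem phi_inter (D : OGraph V) {w : V → ℝ} (hw : ∀ v, 0 ≤ w v) (θ : ℝ) {P U : V → Finset V}
    (hRO : ∀ a X, P a ⊆ X → X ⊆ U a → phi D w θ (P a) ≤ phi D w θ X) {X : Finset V}
    (Q : Finset V) (hX : ∀ s ∈ Q, X ⊆ U s) (hPU : ∀ a, P a ⊆ U a) :
    phi D w θ (X.filter fun x => ∀ s ∈ Q, x ∈ P s) ≤ phi D w θ X := by
  induction Q using Finset.induction_on with
  | empty =>
    have : (X.filter fun x => ∀ s ∈ (∅ : Finset V), x ∈ P s) = X := by
      ext x; simp
    rw [this]
  | insert q Q hqQ ih =>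
    have ih' := ih (fun s hs => hX s (Finset.mem_insert_of_mem hs))
    set Z := X.filter fun x => ∀ s ∈ Q, x ∈ P s with hZ
    have e : (X.filter fun x => ∀ s ∈ insert q Q, x ∈ P s) = Z ∩ P q := by
      ext x
      rw [Finset.mem_filter, Finset.mem_inter, hZ, Finset.mem_filter]
      constructor
      · rintro ⟨h1, h2⟩
        exact ⟨⟨h1, fun s hs => h2 s (Finset.mem_insert_of_mem hs)⟩,
          h2 q (Finset.mem_insert_self _ _)⟩
      · rintro ⟨⟨h1, h2⟩, h3⟩
        refine ⟨h1, fun s hs => ?_⟩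
        rcases Finset.mem_insert.1 hs with rfl | hs
        · exact h3
        · exact h2 s hs
    rw [e]
    have h1 := phi_submod D hw θ Z (P q)
    have h2 : phi D w θ (P q) ≤ phi D w θ (Z ∪ P q) := by
      refine hRO q _ Finset.subset_union_right ?_
      refine Finset.union_subset ?_ (hPU q)
      exact (Finset.filter_subset _ _).trans (hX q (Finset.mem_insert_self _ _))
    linarith

theorem phi_AA (D : OGraph V) {w : V → ℝ} (hw : ∀ v, 0 ≤ w v) (θ : ℝ) {P P' U : V → Finset V}
    (hRO : ∀ a X, P a ⊆ X → X ⊆ U a → phi D w θ (P a) ≤ phi D w θ X)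
    (hPU : ∀ a, P a ⊆ U a) (hPP : ∀ a, P a ⊆ P' a) (hP'U : ∀ a, P' a ⊆ U a) (a : V) :
    phi D w θ (AA D P a) ≤ phi D w θ (AA D P' a) := by
  classical
  have h1 := phi_inter D hw θ hRO (X := AA D P' a) (Finset.univ.filter fun s => s = a ∨ D.arc s a)
    (fun s hs x hx => hP'U s (mem_AA.1 hx s (Finset.mem_filter.1 hs).2)) hPU
  have e : ((AA D P' a).filter fun x => ∀ s ∈ (Finset.univ.filter fun s => s = a ∨ D.arc s a),
      x ∈ P s) = AA D P a := by
    ext x
    rw [Finset.mem_filter, mem_AA, mem_AA]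
    constructor
    · rintro ⟨_, h2⟩ s hs
      exact h2 s (Finset.mem_filter.2 ⟨Finset.mem_univ _, hs⟩)
    · intro h2
      exact ⟨fun s hs => hPP s (h2 s hs), fun s hs => h2 s (Finset.mem_filter.1 hs).2⟩
  rwa [e] at h1

/-- **The main lemma** (finite induction on the gap). -/
theorem star (D : OGraph V) {w : V → ℝ} (hw : ∀ v, 0 < w v) (U : V → Finset V) (k : ℕ) :
    ∀ (θ : ℝ) (P : V → Finset V), (∑ a, (U a \ P a).card = k) → (∀ a, P a ⊆ U a) →
      (∀ a X, P a ⊆ X → X ⊆ U a → phi D w θ (P a) ≤ phi D w θ X) →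
      (∀ Z : V → Finset V, (∀ a, P a ⊆ Z a) → (∀ a, Z a ⊆ U a) →
        ∑ a, w a * (W w (U a) - W w (Z a)) ≤ ∑ a, w a * (W w (AA D U a) - W w (AA D Z a))) →
      ∑ a, w a * (phi D w θ (U a) - phi D w θ (P a)) ≤
        ∑ a, w a * (phi D w θ (AA D U a) - phi D w θ (AA D P a)) := by
  induction k using Nat.strong_induction_on with
  | _ k ih =>
    intro θ P hk hPU hRO hCO
    have hw0 : ∀ v, 0 ≤ w v := fun v => (hw v).le
    by_cases hne : ∃ a, P a ≠ U a
    · obtain ⟨a1, ha1⟩ := hne
      obtain ⟨q, hq, hmin⟩ := Finset.exists_min_image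
        ((Finset.univ : Finset (V × Finset V)).filter fun q => P q.1 ⊂ q.2 ∧ q.2 ⊆ U q.1)
        (fun q => (W w (cl D q.2) - W w (cl D (P q.1))) / W w (q.2 \ P q.1))
        ⟨(a1, U a1), Finset.mem_filter.2 ⟨Finset.mem_univ _,
          Finset.ssubset_iff_subset_ne.2 ⟨hPU a1, ha1⟩, Finset.Subset.refl _⟩⟩
      obtain ⟨a0, X0⟩ := q
      obtain ⟨-, hq1, hq2⟩ := Finset.mem_filter.1 hq
      simp only at hq1 hq2 hmin
      set θ' := (W w (cl D X0) - W w (cl D (P a0))) / W w (X0 \ P a0) with hθ'
      have hpos : ∀ a X, P a ⊂ X → 0 < W w (X \ P a) := by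
        intro a X h
        refine Finset.sum_pos (fun v _ => hw v) ?_
        obtain ⟨x, hx, hx'⟩ := Finset.exists_of_ssubset h
        exact ⟨x, Finset.mem_sdiff.2 ⟨hx, hx'⟩⟩
      have hsd : ∀ a X, P a ⊆ X → W w (X \ P a) = W w X - W w (P a) := fun a X h => W_sdiff h
      -- (RO) at `θ'`
      have hRO' : ∀ a X, P a ⊆ X → X ⊆ U a → phi D w θ' (P a) ≤ phi D w θ' X := by
        intro a X h1 h2
        rcases h1.eq_or_ssubset with h3 | h3
        · rw [h3]
        · have h4 := hmin (a, X) (Finset.mem_filter.2 ⟨Finset.mem_univ _, h3, h2⟩)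
          simp only at h4
          rw [le_div_iff₀ (hpos a X h3), hsd a X h1] at h4
          unfold phi
          linarith
      have hX0 : phi D w θ' X0 = phi D w θ' (P a0) := by
        have h1 : θ' * W w (X0 \ P a0) = W w (cl D X0) - W w (cl D (P a0)) := by
          rw [hθ']
          exact div_mul_cancel₀ _ (hpos a0 X0 hq1).ne'
        rw [hsd a0 X0 hq1.subset] at h1
        unfold phi
        linarith
      have hθθ' : θ ≤ θ' := by
        rw [hθ', le_div_iff₀ (hpos a0 X0 hq1), hsd a0 X0 hq1.subset]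
        have h1 := hRO a0 X0 hq1.subset hq2
        unfold phi at h1
        linarith
      -- the new family
      set P' : V → Finset V := Function.update P a0 X0 with hP'
      have hP'a0 : P' a0 = X0 := by rw [hP']; exact Function.update_self _ _ _
      have hP'ne : ∀ a, a ≠ a0 → P' a = P a := fun a h => by
        rw [hP']; exact Function.update_of_ne h _ _
      have hPP : ∀ a, P a ⊆ P' a := by
        intro a
        by_cases h : a = a0
        · rw [h, hP'a0]; exact hq1.subset
        · rw [hP'ne a h]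
      have hP'U : ∀ a, P' a ⊆ U a := by
        intro a
        by_cases h : a = a0
        · rw [h, hP'a0]; exact hq2
        · rw [hP'ne a h]; exact hPU a
      have hcard : ∑ a, (U a \ P' a).card < k := by
        rw [← hk]
        refine Finset.sum_lt_sum (fun a _ => Finset.card_le_card
          (Finset.sdiff_subset_sdiff (Finset.Subset.refl _) (hPP a))) ⟨a0, Finset.mem_univ _, ?_⟩
        refine Finset.card_lt_card ?_
        rw [hP'a0]
        obtain ⟨x, hx, hx'⟩ := Finset.exists_of_ssubset hq1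
        refine Finset.ssubset_iff_subset_ne.2 ⟨Finset.sdiff_subset_sdiff (Finset.Subset.refl _)
          hq1.subset, fun he => ?_⟩
        have h1 : x ∈ U a0 \ P a0 := Finset.mem_sdiff.2 ⟨hq2 hx, hx'⟩
        rw [← he] at h1
        exact (Finset.mem_sdiff.1 h1).2 hx
      have hind := ih _ hcard θ' P' rfl hP'U (by
        intro a X h1 h2
        by_cases h : a = a0
        · rw [h, hP'a0, hX0]
          rw [h, hP'a0] at h1
          rw [h] at h2
          exact hRO' a0 X (hq1.subset.trans h1) h2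
        · rw [hP'ne a h] at h1 ⊢
          exact hRO' a X h1 h2) (fun Z h1 h2 => hCO Z (fun a => (hPP a).trans (h1 a)) h2)
      -- left sides
      have hL : ∑ a, w a * (phi D w θ' (U a) - phi D w θ' (P a)) =
          ∑ a, w a * (phi D w θ' (U a) - phi D w θ' (P' a)) := by
        refine Finset.sum_congr rfl fun a _ => ?_
        by_cases h : a = a0
        · rw [h, hP'a0, hX0]
        · rw [hP'ne a h]
      -- right sides
      have hR : ∑ a, w a * (phi D w θ' (AA D U a) - phi D w θ' (AA D P' a)) ≤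
          ∑ a, w a * (phi D w θ' (AA D U a) - phi D w θ' (AA D P a)) := by
        refine Finset.sum_le_sum fun a _ => mul_le_mul_of_nonneg_left ?_ (hw0 a)
        have := phi_AA D hw0 θ' hRO' hPU hPP hP'U a
        linarith
      have h' : ∑ a, w a * (phi D w θ' (U a) - phi D w θ' (P a)) ≤
          ∑ a, w a * (phi D w θ' (AA D U a) - phi D w θ' (AA D P a)) := by
        rw [hL]; exact hind.trans hR
      -- from `θ'` back to `θ`
      have hco := hCO P (fun a => Finset.Subset.refl _) hPU
      have e1 : ∑ a, w a * (phi D w θ (U a) - phi D w θ (P a)) =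
          ∑ a, w a * (phi D w θ' (U a) - phi D w θ' (P a)) +
            (θ' - θ) * ∑ a, w a * (W w (U a) - W w (P a)) := by
        rw [Finset.mul_sum, ← Finset.sum_add_distrib]
        refine Finset.sum_congr rfl fun a _ => ?_
        unfold phi
        ring
      have e2 : ∑ a, w a * (phi D w θ (AA D U a) - phi D w θ (AA D P a)) =
          ∑ a, w a * (phi D w θ' (AA D U a) - phi D w θ' (AA D P a)) +
            (θ' - θ) * ∑ a, w a * (W w (AA D U a) - W w (AA D P a)) := by
        rw [Finset.mul_sum, ← Finset.sum_add_distrib]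
        refine Finset.sum_congr rfl fun a _ => ?_
        unfold phi
        ring
      rw [e1, e2]
      have := mul_le_mul_of_nonneg_left hco (sub_nonneg.2 hθθ')
      linarith
    · push Not at hne
      have hPU' : P = U := funext hne
      rw [hPU']
      simp

end Vale.Agent.P038.H753
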