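import Vale.Agent.P038.H753.Shift

/-!
# The shift theorem: bookkeeping and the contradiction with (G) (P038)
-/

namespace Vale.Agent.P038.H753

open Finset H139

variable {V : Type*} [Fintype V] [DecidableEq V]

open Classical in
/-- The weight of a relation. -/
noncomputable def M (w : V → ℝ) (R : V → V → Prop) : ℝ :=
  ∑ a, ∑ b, if R a b then w a * w b else 0

theorem M_rows (w : V → ℝ) (S : V → Finset V) :
    ∑ a, w a * W w (S a) = M w (fun a b => b ∈ S a) := by
  classical
  unfold M W
  refine Finset.sum_congr rfl fun a _ => ?_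
  rw [Finset.mul_sum]
  have h := Finset.sum_ite_mem Finset.univ (S a) (fun b => w a * w b)
  rw [Finset.univ_inter] at h
  rw [← h]
  refine Finset.sum_congr rfl fun b _ => ?_
  by_cases hb : b ∈ S a
  · rw [if_pos hb, if_pos hb]
  · rw [if_neg hb, if_neg hb]

omit [DecidableEq V] in
theorem M_mono {w : V → ℝ} (hw : ∀ v, 0 ≤ w v) {R R' : V → V → Prop}
    (h : ∀ a b, R a b → R' a b) : M w R ≤ M w R' := by
  classical
  unfold M
  refine Finset.sum_le_sum fun a _ => Finset.sum_le_sum fun b _ => ?_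
  by_cases h1 : R a b
  · rw [if_pos h1, if_pos (h a b h1)]
  · rw [if_neg h1]
    split_ifs
    · exact mul_nonneg (hw a) (hw b)
    · exact le_refl _

omit [DecidableEq V] in
theorem M_swap (w : V → ℝ) (R : V → V → Prop) : M w (fun a b => R b a) = M w R := by
  classical
  unfold M
  rw [Finset.sum_comm]
  refine Finset.sum_congr rfl fun a _ => Finset.sum_congr rfl fun b _ => ?_
  rw [mul_comm]

omit [DecidableEq V] in
theorem M_sdiff (w : V → ℝ) {R R' : V → V → Prop} (h : ∀ a b, R' a b → R a b) :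
    M w (fun a b => R a b ∧ ¬ R' a b) = M w R - M w R' := by
  classical
  rw [eq_sub_iff_add_eq]
  unfold M
  rw [← Finset.sum_add_distrib]
  refine Finset.sum_congr rfl fun a _ => ?_
  rw [← Finset.sum_add_distrib]
  refine Finset.sum_congr rfl fun b _ => ?_
  by_cases h1 : R a b
  · by_cases h2 : R' a b
    · simp [h1, h2]
    · simp [h1, h2]
  · have h2 : ¬ R' a b := fun h3 => h1 (h a b h3)
    simp [h1, h2]

/-- The difference of two row sums. -/
theorem rows_sub (w : V → ℝ) {S T : V → Finset V} (h : ∀ a, T a ⊆ S a) :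
    ∑ a, w a * (W w (S a) - W w (T a)) = M w (fun a b => b ∈ S a ∧ b ∉ T a) := by
  have h1 : ∑ a, w a * (W w (S a) - W w (T a)) =
      ∑ a, w a * W w (S a) - ∑ a, w a * W w (T a) := by
    rw [← Finset.sum_sub_distrib]
    exact Finset.sum_congr rfl fun a _ => by ring
  rw [h1, M_rows, M_rows, ← M_sdiff w (fun a b hb => h a hb)]

/-- Outer pairs, in the form of two nested relations. -/
structure Out (D : OGraph V) (P U : V → Finset V) : Prop where
  base : ∀ a, cl D {a} ⊆ P a
  sub : ∀ a, P a ⊆ U a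
  anti : ∀ a b, D.arc b a → b ∉ U a

/-- The cost of an outer pair. -/
noncomputable def costO (D : OGraph V) (w : V → ℝ) (P U : V → Finset V) : ℝ :=
  ∑ a, w a * (W w (cl D (P a)) - W w (P a)) + ∑ a, w a * (W w (U a) - W w (AA D U a))

theorem exists_out (D : OGraph V) : Out D (fun a => cl D {a}) (fun a => cl D {a}) where
  base _ := Finset.Subset.refl _
  sub _ := Finset.Subset.refl _
  anti a b hba := by
    rw [mem_cl]
    rintro (h | ⟨y, hy, hyb⟩)
    · rw [Finset.mem_singleton] at h
      rw [h] at hba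
      exact D.loopless _ hba
    · rw [Finset.mem_singleton] at hy
      rw [hy] at hyb
      exact D.asymm _ _ hyb hba

theorem exists_min (D : OGraph V) (w : V → ℝ) : ∃ P U : V → Finset V, Out D P U ∧
    ∀ P' U' : V → Finset V, Out D P' U' → costO D w P U ≤ costO D w P' U' := by
  classical
  obtain ⟨q, hq, hmin⟩ := Finset.exists_min_image
    ((Finset.univ : Finset ((V → Finset V) × (V → Finset V))).filter fun q => Out D q.1 q.2)
    (fun q => costO D w q.1 q.2)
    ⟨(fun a => cl D {a}, fun a => cl D {a}), Finset.mem_filter.2 ⟨Finset.mem_univ _,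
      exists_out D⟩⟩
  exact ⟨q.1, q.2, (Finset.mem_filter.1 hq).2, fun P' U' h => hmin (P', U')
    (Finset.mem_filter.2 ⟨Finset.mem_univ _, h⟩)⟩

theorem main_ineq (D : OGraph V) {w : V → ℝ} (hw : ∀ v, 0 < w v) {P U : V → Finset V}
    (h : Out D P U)
    (hmin : ∀ P' U' : V → Finset V, Out D P' U' → costO D w P U ≤ costO D w P' U') :
    ∑ a, w a * (phi D w 1 (U a) - phi D w 1 (P a)) ≤
      ∑ a, w a * (phi D w 1 (AA D U a) - phi D w 1 (AA D P a)) := by
  refine star D hw U _ 1 P rfl h.sub ?_ ?_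
  · intro a0 X h1 h2
    set P' : V → Finset V := Function.update P a0 X with hP'
    have hP'a0 : P' a0 = X := by rw [hP']; exact Function.update_self _ _ _
    have hP'ne : ∀ a, a ≠ a0 → P' a = P a := fun a h => by
      rw [hP']; exact Function.update_of_ne h _ _
    have hout : Out D P' U := by
      refine ⟨fun a => ?_, fun a => ?_, h.anti⟩
      · by_cases e : a = a0
        · rw [e, hP'a0]; exact (h.base a0).trans h1
        · rw [hP'ne a e]; exact h.base a
      · by_cases e : a = a0
        · rw [e, hP'a0]; exact h2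
        · rw [hP'ne a e]; exact h.sub a
    have h3 := hmin P' U hout
    unfold costO at h3
    have h4 : ∑ a, w a * (W w (cl D (P a)) - W w (P a)) ≤
        ∑ a, w a * (W w (cl D (P' a)) - W w (P' a)) := by linarith
    have h5 : 0 ≤ ∑ a, (w a * (W w (cl D (P' a)) - W w (P' a)) -
        w a * (W w (cl D (P a)) - W w (P a))) := by
      rw [Finset.sum_sub_distrib]; linarith
    rw [Finset.sum_eq_single a0 (fun a _ ha => by rw [hP'ne a ha]; ring)
      (fun h => absurd (Finset.mem_univ _) h), hP'a0, ← mul_sub] at h5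
    have h6 := nonneg_of_mul_nonneg_right h5 (hw a0)
    unfold phi
    linarith
  · intro Z h1 h2
    have hout : Out D P Z := ⟨h.base, h1, fun a b hba hb => h.anti a b hba (h2 a hb)⟩
    have h3 := hmin P Z hout
    unfold costO at h3
    have h4 : ∑ a, w a * (W w (U a) - W w (AA D U a)) ≤
        ∑ a, w a * (W w (Z a) - W w (AA D Z a)) := by linarith
    have e1 : ∑ a, w a * (W w (U a) - W w (AA D U a)) =
        ∑ a, w a * W w (U a) - ∑ a, w a * W w (AA D U a) := by
      rw [← Finset.sum_sub_distrib]; exact Finset.sum_congr rfl fun a _ => by ring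
    have e2 : ∑ a, w a * (W w (Z a) - W w (AA D Z a)) =
        ∑ a, w a * W w (Z a) - ∑ a, w a * W w (AA D Z a) := by
      rw [← Finset.sum_sub_distrib]; exact Finset.sum_congr rfl fun a _ => by ring
    have e3 : ∑ a, w a * (W w (U a) - W w (Z a)) =
        ∑ a, w a * W w (U a) - ∑ a, w a * W w (Z a) := by
      rw [← Finset.sum_sub_distrib]; exact Finset.sum_congr rfl fun a _ => by ring
    have e4 : ∑ a, w a * (W w (AA D U a) - W w (AA D Z a)) =
        ∑ a, w a * W w (AA D U a) - ∑ a, w a * W w (AA D Z a) := by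
      rw [← Finset.sum_sub_distrib]; exact Finset.sum_congr rfl fun a _ => by ring
    rw [e1, e2] at h4
    rw [e3, e4]
    linarith

/-- **The shift theorem contradicts strict (G).** -/
theorem shift_false (D : OGraph V) {w : V → ℝ} (hw : ∀ v, 0 < w v)
    (hG : ∀ S : Finset V, cl D S ≠ S →
      W w (cl D (cl D S)) - W w (cl D S) < W w (cl D S) - W w S)
    (hst : ∀ S : Finset V, S.Nonempty → (∃ z, z ∉ S) → cl D S ≠ S)
    (harc : ∃ a b, D.arc a b) : False := by
  classical
  have hw0 : ∀ v, 0 ≤ w v := fun v => (hw v).le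
  obtain ⟨P, U, h, hmin⟩ := exists_min D w
  have hmain := main_ineq D hw h hmin
  have hselfP : ∀ a, a ∈ P a := fun a => h.base a (mem_cl.2 (Or.inl (Finset.mem_singleton_self a)))
  have harcP : ∀ a b, D.arc a b → b ∈ P a := fun a b hab =>
    h.base a (mem_cl.2 (Or.inr ⟨a, Finset.mem_singleton_self a, hab⟩))
  -- the families `T`, `X`, `Y`
  set T : V → Finset V := fun s => Finset.univ.filter fun a => s ∉ U a ∨ a = s with hT
  have mT : ∀ s a, a ∈ T s ↔ (s ∉ U a ∨ a = s) := fun s a => by simp [hT]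
  set X : V → Finset V := AA D P with hX
  set Y : V → Finset V := AA D T with hY
  have hselfX : ∀ a, a ∈ X a := by
    intro a
    rw [hX, mem_AA]
    rintro s (rfl | hs)
    · exact hselfP s
    · exact harcP s a hs
  have hselfY : ∀ a, a ∈ Y a := by
    intro a
    rw [hY, mem_AA]
    rintro s (rfl | hs)
    · exact (mT s s).2 (Or.inr rfl)
    · exact (mT s a).2 (Or.inl (h.anti a s hs))
  have hcompat : ∀ a b, b ∈ P a → a ∈ T b → a = b := by
    intro a b hb ha
    rcases (mT b a).1 ha with h1 | h1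
    · exact absurd (h.sub a hb) h1
    · exact h1
  -- inner compatibility
  have hin : ∀ a b, b ∈ cl D (X a) → a ∈ cl D (Y b) → a = b := by
    intro a b hb ha
    by_contra hab
    -- `x ∈ X a`, `x ∈ N⁻[b]`
    obtain ⟨x, hx, hxb⟩ : ∃ x ∈ X a, (x = b ∨ D.arc x b) := by
      rcases mem_cl.1 hb with h1 | ⟨x, hx, hxb⟩
      · exact ⟨b, h1, Or.inl rfl⟩
      · exact ⟨x, hx, Or.inr hxb⟩
    obtain ⟨y, hy, hya⟩ : ∃ y ∈ Y b, (y = a ∨ D.arc y a) := by
      rcases mem_cl.1 ha with h1 | ⟨y, hy, hya⟩
      · exact ⟨a, h1, Or.inl rfl⟩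
      · exact ⟨y, hy, Or.inr hya⟩
    have h1 : x ∈ P y := mem_AA.1 hx y hya
    have h2 : y ∈ T x := mem_AA.1 hy x hxb
    have h3 : y = x := hcompat y x h1 h2
    subst h3
    have hyP : y ∈ P a := mem_AA.1 hx a (Or.inl rfl)
    have hyT : y ∈ T b := mem_AA.1 hy b (Or.inl rfl)
    rcases hya with rfl | hya
    · rcases hxb with h4 | h4
      · exact hab h4
      · exact hab (hcompat y b (harcP y b h4) hyT)
    · have haT : a ∈ T y := (mT y a).2 (Or.inl (h.anti a y hya))
      have h5 := hcompat a y hyP haT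
      rw [h5] at hya
      exact D.loopless _ hya
  -- the new outer pair
  set P' : V → Finset V := fun a => cl D (X a) with hP'
  set U' : V → Finset V := fun a => Finset.univ.filter fun b => a ∉ cl D (Y b) ∨ b = a with hU'
  have mU' : ∀ a b, b ∈ U' a ↔ (a ∉ cl D (Y b) ∨ b = a) := fun a b => by simp [hU']
  have hout : Out D P' U' := by
    refine ⟨fun a => cl_mono' (by
      intro x hx
      rw [Finset.mem_singleton] at hx
      rw [hx]
      exact hselfX a), fun a b hb => ?_, fun a b hba hb => ?_⟩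
    · rw [mU']
      by_cases hab : b = a
      · exact Or.inr hab
      · exact Or.inl fun h1 => hab (hin a b hb h1).symm
    · rcases (mU' a b).1 hb with h1 | h1
      · exact h1 (mem_cl.2 (Or.inr ⟨b, hselfY b, hba⟩))
      · rw [h1] at hba
        exact D.loopless _ hba
  have h1 := hmin P' U' hout
  -- the second cost of the new pair
  have hc2 : ∑ a, w a * (W w (U' a) - W w (AA D U' a)) ≤
      ∑ a, w a * (W w (cl D (cl D (Y a))) - W w (cl D (Y a))) := by
    rw [rows_sub w (fun a => AA_sub), rows_sub w (fun a => subset_cl'),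
      ← M_swap w (fun a b => b ∈ cl D (cl D (Y a)) ∧ b ∉ cl D (Y a))]
    refine M_mono hw0 ?_
    rintro a b ⟨h2, h3⟩
    rw [mem_AA] at h3
    push Not at h3
    obtain ⟨s, hs, hs'⟩ := h3
    rw [mU'] at hs'
    push Not at hs'
    obtain ⟨h4, h5⟩ := hs'
    refine ⟨?_, ?_⟩
    · rcases hs with rfl | hs
      · exact subset_cl' h4
      · exact mem_cl.2 (Or.inr ⟨s, h4, hs⟩)
    · rcases (mU' a b).1 h2 with h6 | h6
      · exact h6
      · exfalso
        subst h6
        rcases hs with hs | hs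
        · exact h5 hs.symm
        · have h7 : b ∈ cl D (X s) := mem_cl.2 (Or.inr ⟨s, hselfX s, hs⟩)
          exact h5 (hin s b h7 h4).symm
  -- the cost of `Y`
  have hc3 : ∑ a, w a * (W w (cl D (Y a)) - W w (Y a)) ≤
      ∑ a, w a * (W w (cl D (U a)) - W w (cl D (AA D U a))) := by
    rw [rows_sub w (fun a => subset_cl'), rows_sub w (fun a => cl_mono' AA_sub),
      ← M_swap w (fun a b => b ∈ cl D (Y a) ∧ b ∉ Y a)]
    refine M_mono hw0 ?_
    rintro u b ⟨h2, h3⟩
    rw [hY, mem_AA] at h3
    push Not at h3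
    obtain ⟨s, hs, hs'⟩ := h3
    rw [mT] at hs'
    push Not at hs'
    refine ⟨?_, ?_⟩
    · rcases hs with rfl | hs
      · exact subset_cl' hs'.1
      · exact mem_cl.2 (Or.inr ⟨s, hs'.1, hs⟩)
    · intro h4
      -- `s' ∈ N⁻[b]` with `(u, s') ∈ AU`
      obtain ⟨s', hs1, hs2⟩ : ∃ s' ∈ AA D U u, (s' = b ∨ D.arc s' b) := by
        rcases mem_cl.1 h4 with h5 | ⟨x, hx, hxb⟩
        · exact ⟨b, h5, Or.inl rfl⟩
        · exact ⟨x, hx, Or.inr hxb⟩
      obtain ⟨y, hy, hyu⟩ : ∃ y ∈ Y b, (y = u ∨ D.arc y u) := by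
        rcases mem_cl.1 h2 with h5 | ⟨y, hy, hyu⟩
        · exact ⟨u, h5, Or.inl rfl⟩
        · exact ⟨y, hy, Or.inr hyu⟩
      have h5 : s' ∈ U y := mem_AA.1 hs1 y hyu
      have h6 : y ∈ T s' := mem_AA.1 hy s' hs2
      have h7 : y = s' := by
        rcases (mT s' y).1 h6 with h8 | h8
        · exact absurd h5 h8
        · exact h8
      subst h7
      have hyTb : y ∈ T b := mem_AA.1 hy b (Or.inl rfl)
      have hyb : y = b := by
        rcases hs2 with h8 | h8
        · exact h8
        · exact hcompat y b (harcP y b h8) hyTb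
      subst hyb
      have h8 : y ∈ U u := mem_AA.1 hs1 u (Or.inl rfl)
      rcases hyu with h9 | h9
      · -- `u = y = b`: then `u ∈ Y b`
        subst h9
        have h10 := mem_AA.1 hy s hs
        rcases (mT s y).1 h10 with h11 | h11
        · exact h11 hs'.1
        · exact hs'.2 h11
      · exact h.anti u y h9 h8
  -- (G) for the rows of `X` and `Y`
  have hGw : ∀ S : Finset V, W w (cl D (cl D S)) - W w (cl D S) ≤ W w (cl D S) - W w S := by
    intro S
    by_cases hS : cl D S = S
    · rw [hS, hS]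
    · exact (hG S hS).le
  have hGY : ∑ a, w a * (W w (cl D (cl D (Y a))) - W w (cl D (Y a))) ≤
      ∑ a, w a * (W w (cl D (Y a)) - W w (Y a)) :=
    Finset.sum_le_sum fun a _ => mul_le_mul_of_nonneg_left (hGw _) (hw0 a)
  have hGX : ∑ a, w a * (W w (cl D (P' a)) - W w (P' a)) <
      ∑ a, w a * (W w (cl D (X a)) - W w (X a)) := by
    obtain ⟨b, a, hba⟩ := harc
    refine Finset.sum_lt_sum (fun a _ => mul_le_mul_of_nonneg_left (hGw _) (hw0 a))
      ⟨a, Finset.mem_univ _, mul_lt_mul_of_pos_left (hG _ ?_) (hw a)⟩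
    refine hst _ ⟨a, hselfX a⟩ ⟨b, fun hb => ?_⟩
    exact hout.anti a b hba (hout.sub a (subset_cl' hb))
  -- comparison
  have e1 : ∑ a, w a * (phi D w 1 (U a) - phi D w 1 (P a)) =
      ∑ a, w a * W w (cl D (U a)) - ∑ a, w a * W w (U a) -
        ∑ a, w a * (W w (cl D (P a)) - W w (P a)) := by
    rw [← Finset.sum_sub_distrib, ← Finset.sum_sub_distrib]
    refine Finset.sum_congr rfl fun a _ => ?_
    unfold phi
    ring
  have e2 : ∑ a, w a * (phi D w 1 (AA D U a) - phi D w 1 (AA D P a)) =
      ∑ a, w a * W w (cl D (AA D U a)) - ∑ a, w a * W w (AA D U a) -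
        ∑ a, w a * (W w (cl D (X a)) - W w (X a)) := by
    rw [← Finset.sum_sub_distrib, ← Finset.sum_sub_distrib]
    refine Finset.sum_congr rfl fun a _ => ?_
    unfold phi
    rw [hX]
    ring
  have e3 : ∑ a, w a * (W w (cl D (U a)) - W w (cl D (AA D U a))) =
      ∑ a, w a * W w (cl D (U a)) - ∑ a, w a * W w (cl D (AA D U a)) := by
    rw [← Finset.sum_sub_distrib]; exact Finset.sum_congr rfl fun a _ => by ring
  have e4 : ∑ a, w a * (W w (U a) - W w (AA D U a)) =
      ∑ a, w a * W w (U a) - ∑ a, w a * W w (AA D U a) := by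
    rw [← Finset.sum_sub_distrib]; exact Finset.sum_congr rfl fun a _ => by ring
  unfold costO at h1
  rw [e1, e2] at hmain
  rw [e3] at hc3
  rw [e4] at h1
  linarith

end Vale.Agent.P038.H753
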